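import Mathlib
import Vale.Agent.P092.H793.Re.Blocks

/-!
P092, project RE (helper270): elementary facts on the Lie algebra, the diagonal part and compact
sets of matrices of the group.
-/

set_option linter.all false

open Matrix Filter Topology

namespace Vale.Agent.P092.H270.Re

open Vale.Agent.P092.H793.Re

variable {n : ℕ} {G : Type} [Group G] [TopologicalSpace G] {ρ : G →* SLn n}

/-- the matrix of `g` -/
def mm (ρ : G →* SLn n) (g : G) : Mat n := (ρ g).1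

lemma mm_mul (g h : G) : mm ρ (g * h) = mm ρ g * mm ρ h := by
  have h1 : ρ (g * h) = ρ g * ρ h := map_mul ρ g h
  show (ρ (g * h)).1 = (ρ g).1 * (ρ h).1
  exact (congrArg Subtype.val h1).trans rfl

lemma mm_one : mm ρ (1 : G) = 1 := by
  have h1 : ρ (1 : G) = 1 := map_one ρ
  exact (congrArg Subtype.val h1).trans rfl

lemma mm_inv_adj (g : G) : mm ρ g⁻¹ = (mm ρ g).adjugate := by
  have h1 : ρ g⁻¹ = (ρ g)⁻¹ := map_inv ρ g
  exact (congrArg Subtype.val h1).trans rfl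

lemma mm_det (g : G) : (mm ρ g).det = 1 := (ρ g).2

lemma mm_mul_inv (g : G) : mm ρ g * mm ρ g⁻¹ = 1 := by
  rw [← mm_mul, mul_inv_cancel, mm_one]

lemma mm_inv_mul (g : G) : mm ρ g⁻¹ * mm ρ g = 1 := by
  rw [← mm_mul, inv_mul_cancel, mm_one]

lemma inv_eq {g : G} {B : Mat n} (h : mm ρ g * B = 1) : mm ρ g⁻¹ = B := by
  calc mm ρ g⁻¹ = mm ρ g⁻¹ * (mm ρ g * B) := by rw [h, Matrix.mul_one]
    _ = B := by rw [← Matrix.mul_assoc, mm_inv_mul, Matrix.one_mul]

lemma ort_inv {κ : G} (h : Ort ρ κ) : mm ρ κ⁻¹ = (mm ρ κ)ᵀ := inv_eq h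

lemma ort_mul_transpose {κ : G} (h : Ort ρ κ) : mm ρ κ * (mm ρ κ)ᵀ = 1 := h

lemma ort_transpose_mul {κ : G} (h : Ort ρ κ) : (mm ρ κ)ᵀ * mm ρ κ = 1 := by
  rw [← ort_inv h, mm_inv_mul]

lemma ort_of_inv {κ : G} (h : Ort ρ κ) : Ort ρ κ⁻¹ := by
  show mm ρ κ⁻¹ * (mm ρ κ⁻¹)ᵀ = 1
  rw [ort_inv h, transpose_transpose, ort_transpose_mul h]

lemma ort_mul {κ κ' : G} (h : Ort ρ κ) (h' : Ort ρ κ') : Ort ρ (κ * κ') := by
  show mm ρ (κ * κ') * (mm ρ (κ * κ'))ᵀ = 1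
  rw [mm_mul, transpose_mul, Matrix.mul_assoc, ← Matrix.mul_assoc (mm ρ κ'), ort_mul_transpose h',
    Matrix.one_mul, ort_mul_transpose h]

lemma exp_diag (x : Fin n → ℝ) :
    NormedSpace.exp (diagonal x) = diagonal (fun a => Real.exp (x a)) := by
  rw [Matrix.exp_diagonal]
  congr 1
  funext a
  rw [Real.exp_eq_exp_ℝ]
  exact Pi.coe_exp x a

lemma lie_iff {X : Mat n} : Lie ρ X ↔ ∀ t : ℝ, ∃ g, mm ρ g = NormedSpace.exp (t • X) := Iff.rfl

lemma exp_smul_diag (t : ℝ) (x : Fin n → ℝ) :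
    NormedSpace.exp (t • diagonal x) = diagonal (fun a => Real.exp (t * x a)) := by
  rw [← diagonal_smul, exp_diag]
  rfl

lemma lie_smul {X : Mat n} (h : Lie ρ X) (c : ℝ) : Lie ρ (c • X) := fun t => by
  obtain ⟨g, hg⟩ := h (t * c)
  exact ⟨g, by rw [hg, mul_smul]⟩

lemma lie_diag_add {x y : Fin n → ℝ} (h : Lie ρ (diagonal x)) (h' : Lie ρ (diagonal y)) :
    Lie ρ (diagonal (x + y)) := lie_iff.2 fun t => by
  obtain ⟨g, hg⟩ := lie_iff.1 h t
  obtain ⟨g', hg'⟩ := lie_iff.1 h' t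
  refine ⟨g * g', ?_⟩
  rw [mm_mul, hg, hg', exp_smul_diag, exp_smul_diag, exp_smul_diag, diagonal_mul_diagonal]
  congr 1
  funext a
  rw [← Real.exp_add, Pi.add_apply, mul_add]

lemma lie_diag_zero : Lie ρ (diagonal (0 : Fin n → ℝ)) := lie_iff.2 fun t => ⟨1, by
  rw [exp_smul_diag, mm_one, ← diagonal_one]
  congr 1
  funext a
  simp⟩

lemma lie_diag_smul {x : Fin n → ℝ} (h : Lie ρ (diagonal x)) (c : ℝ) :
    Lie ρ (diagonal (c • x)) := by
  rw [diagonal_smul]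
  exact lie_smul h c

lemma lie_diag_sum {I : Type*} (s : Finset I) (c : I → ℝ) {w : I → Fin n → ℝ}
    (h : ∀ i, Lie ρ (diagonal (w i))) : Lie ρ (diagonal (∑ i ∈ s, c i • w i)) := by
  classical
  induction s using Finset.induction_on with
  | empty => simpa using lie_diag_zero
  | insert i s hi ih =>
    rw [Finset.sum_insert hi]
    exact lie_diag_add (lie_diag_smul (h i) _) ih

/-- the exponential of a diagonal element -/
lemma exists_exp {x : Fin n → ℝ} (h : Lie ρ (diagonal x)) :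
    ∃ g, mm ρ g = diagonal (fun a => Real.exp (x a)) ∧
      mm ρ g⁻¹ = diagonal (fun a => Real.exp (-x a)) := by
  obtain ⟨g, hg⟩ := lie_iff.1 h 1
  rw [exp_smul_diag] at hg
  simp only [one_mul] at hg
  refine ⟨g, hg, inv_eq ?_⟩
  rw [hg, diagonal_mul_diagonal, ← diagonal_one]
  congr 1
  funext a
  rw [← Real.exp_add, add_neg_cancel, Real.exp_zero]

lemma lie_conj (g : G) {X : Mat n} (h : Lie ρ X) :
    Lie ρ (mm ρ g * X * mm ρ g⁻¹) := lie_iff.2 fun t => by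
  obtain ⟨e, he⟩ := lie_iff.1 h t
  refine ⟨g * e * g⁻¹, ?_⟩
  have hu : IsUnit (mm ρ g) := IsUnit.of_mul_eq_one _ (mm_mul_inv g)
  have hi : (mm ρ g)⁻¹ = mm ρ g⁻¹ := Matrix.inv_eq_right_inv (mm_mul_inv g)
  rw [mm_mul, mm_mul, he, ← hi, ← Matrix.exp_conj _ _ hu]
  congr 1
  rw [Matrix.mul_smul, Matrix.smul_mul]

lemma lie_transpose (hρ : RS ρ) {X : Mat n} (h : Lie ρ X) : Lie ρ Xᵀ := lie_iff.2 fun t => by
  obtain ⟨e, he⟩ := lie_iff.1 h t
  obtain ⟨e', he'⟩ := hρ.adj e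
  refine ⟨e', ?_⟩
  have h1 : mm ρ e' = (mm ρ e)ᵀ := he'
  rw [h1, he, ← Matrix.exp_transpose, transpose_smul]

/-- trichotomy of the entries of elements of the Lie algebra -/
lemma entry_cases (hρ : RS ρ) {h : Fin n → ℝ} (hD : Dg ρ h) {r : ℕ} {p q : Fin r → Fin n}
    {w : Fin r → Fin n → ℝ} {E : Fin r → Mat n} (hS : Sr ρ h p q w E) {X : Mat n} (hX : Lie ρ X)
    {a b : Fin n} (hab : X a b ≠ 0) : ∃ m : Fin r → ℕ,
      (∀ x : Fin n → ℝ, Lie ρ (diagonal x) → x a - x b = ∑ j, (m j : ℝ) * (x (p j) - x (q j))) ∨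
      (∀ x : Fin n → ℝ, Lie ρ (diagonal x) →
        x a - x b = -∑ j, (m j : ℝ) * (x (p j) - x (q j))) := by
  rcases lt_trichotomy (h b) (h a) with h1 | h1 | h1
  · obtain ⟨m, hm⟩ := hS.root X hX a b hab h1
    exact ⟨m, Or.inl hm⟩
  · refine ⟨0, Or.inl fun x hx => ?_⟩
    have h2 := hD.gen a b a a (by rw [h1]) x hx
    rw [h2]
    simp
  · obtain ⟨m, hm⟩ := hS.root Xᵀ (lie_transpose hρ hX) b a hab h1
    refine ⟨m, Or.inr fun x hx => ?_⟩
    rw [← hm x hx, neg_sub]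

/-- the differences of the dual basis -/
lemma w_sub {h : Fin n → ℝ} {r : ℕ} {p q : Fin r → Fin n}
    {w : Fin r → Fin n → ℝ} {E : Fin r → Mat n} (hS : Sr ρ h p q w E) (m : Fin r → ℕ)
    (i : Fin r) : ∑ j, (m j : ℝ) * (w i (p j) - w i (q j)) = m i := by
  rw [Finset.sum_eq_single i]
  · rw [hS.dual, if_pos rfl, mul_one]
  · intro j _ hj
    rw [hS.dual, if_neg hj, mul_zero]
  · intro hi
    exact absurd (Finset.mem_univ i) hi

/-! ### Compactness -/

/-- the set of matrices of the group is closed -/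
lemma isClosed_range (hρ : RS ρ) : IsClosed {M : Mat n | ∃ g, mm ρ g = M} := by
  have h1 : IsClosedEmbedding (fun g : G => mm ρ g) :=
    (Matrix.SpecialLinearGroup.isClosedEmbedding_val (n := Fin n) (R := ℝ)).comp hρ.emb
  exact h1.isClosed_range

lemma isCompact_box (n : ℕ) (C : ℝ) : IsCompact {M : Mat n | ∀ a b, |M a b| ≤ C} := by
  have h1 : IsCompact (Set.univ.pi (fun _ : Fin n => Set.univ.pi
      (fun _ : Fin n => Set.Icc (-C) C))) :=
    isCompact_univ_pi fun _ => isCompact_univ_pi fun _ => isCompact_Icc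
  have h2 : {M : Mat n | ∀ a b, |M a b| ≤ C} = (Set.univ.pi (fun _ : Fin n => Set.univ.pi
      (fun _ : Fin n => Set.Icc (-C) C)) : Set (Fin n → Fin n → ℝ)) := by
    apply Set.ext
    intro M
    constructor
    · intro hM a _ b _
      exact abs_le.1 (hM a b)
    · intro hM a b
      exact abs_le.2 (hM a trivial b trivial)
  rw [h2]
  exact h1

/-- bounded sequences of group elements subconverge -/
lemma exists_subseq (hρ : RS ρ) {C : ℝ} (u : ℕ → G) (hu : ∀ k a b, |mm ρ (u k) a b| ≤ C) :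
    ∃ (g : G) (φ : ℕ → ℕ), StrictMono φ ∧
      Tendsto (fun k => mm ρ (u (φ k))) atTop (𝓝 (mm ρ g)) := by
  have hc : IsCompact ({M : Mat n | ∀ a b, |M a b| ≤ C} ∩ {M : Mat n | ∃ g, mm ρ g = M}) :=
    (isCompact_box n C).inter_right (isClosed_range hρ)
  have : FirstCountableTopology (Mat n) :=
    inferInstanceAs (FirstCountableTopology (Fin n → Fin n → ℝ))
  obtain ⟨M, hM, φ, hφ, hlim⟩ := hc.tendsto_subseq (x := fun k => mm ρ (u k))
    (fun k => ⟨hu k, u k, rfl⟩)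
  obtain ⟨g, hg⟩ := hM.2
  exact ⟨g, φ, hφ, by rw [hg]; exact hlim⟩

lemma ort_entry {κ : G} (h : Ort ρ κ) (a b : Fin n) : |mm ρ κ a b| ≤ 1 := by
  have h1 : ∑ c, mm ρ κ a c * mm ρ κ a c = 1 := by
    have := congrFun (congrFun (ort_mul_transpose h) a) a
    rwa [Matrix.mul_apply, one_apply_eq] at this
  have h2 : mm ρ κ a b * mm ρ κ a b ≤ ∑ c, mm ρ κ a c * mm ρ κ a c :=
    Finset.single_le_sum (f := fun c => mm ρ κ a c * mm ρ κ a c)
      (fun c _ => mul_self_nonneg _) (Finset.mem_univ b)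
  rw [abs_le]
  constructor <;> nlinarith

lemma ort_of_tendsto {u : ℕ → G} {g : G} (hu : ∀ k, Ort ρ (u k))
    (hlim : Tendsto (fun k => mm ρ (u k)) atTop (𝓝 (mm ρ g))) : Ort ρ g := by
  have h1 : Tendsto (fun k => mm ρ (u k) * (mm ρ (u k))ᵀ) atTop (𝓝 (mm ρ g * (mm ρ g)ᵀ)) := by
    have hc : Continuous (fun M : Mat n => M * Mᵀ) := by fun_prop
    exact (hc.tendsto _).comp hlim
  refine tendsto_nhds_unique h1 ?_
  refine tendsto_const_nhds.congr fun k => (hu k).symm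

lemma inv_tendsto {u : ℕ → G} {g : G}
    (hlim : Tendsto (fun k => mm ρ (u k)) atTop (𝓝 (mm ρ g))) :
    Tendsto (fun k => mm ρ (u k)⁻¹) atTop (𝓝 (mm ρ g⁻¹)) := by
  have hc : Continuous (fun M : Mat n => M.adjugate) := by fun_prop
  simp only [mm_inv_adj]
  exact (hc.tendsto _).comp hlim

lemma entry_tendsto {F : ℕ → Mat n} {M : Mat n} (h : Tendsto F atTop (𝓝 M)) (a b : Fin n) :
    Tendsto (fun k => F k a b) atTop (𝓝 (M a b)) := by
  have hc : Continuous (fun M : Mat n => M a b) := by fun_prop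
  exact (hc.tendsto _).comp h

end Vale.Agent.P092.H270.Re
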