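import Vale.Agent.P092.H944.SVD

/-!
P092, project RE (helper270): elementary estimates for the Hilbert-Schmidt norm.
-/

set_option linter.all false

open Matrix

namespace Vale.Agent.P092.H270.Re

open Vale.Agent.P092.H944 (hs hs_nonneg hs_orth_mul hs_transpose)

variable {n : ℕ}

lemma hs_small_mul {D : Matrix (Fin n) (Fin n) ℝ} {ε : ℝ} (hε : 0 ≤ ε)
    (hD : ∀ a b, |D a b| ≤ ε)
    (V : Matrix (Fin n) (Fin n) ℝ) : hs (D * V) ≤ (n * (n * ε ^ 2)) * hs V := by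
  have h1 : ∀ i j, (D * V) i j ^ 2 ≤ n * ε ^ 2 * ∑ c, V c j ^ 2 := by
    intro i j
    rw [Matrix.mul_apply]
    have h2 : (∑ c, D i c * V c j) ^ 2 ≤ n * ∑ c, (D i c * V c j) ^ 2 := by
      have := sq_sum_le_card_mul_sum_sq (s := (Finset.univ : Finset (Fin n)))
        (f := fun c => D i c * V c j)
      simpa using this
    have h3 : ∑ c, (D i c * V c j) ^ 2 ≤ ∑ c, ε ^ 2 * V c j ^ 2 := by
      refine Finset.sum_le_sum fun c _ => ?_
      rw [mul_pow]
      refine mul_le_mul_of_nonneg_right ?_ (sq_nonneg _)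
      rw [← sq_abs]
      exact pow_le_pow_left₀ (abs_nonneg _) (hD i c) 2
    calc _ ≤ (n : ℝ) * ∑ c, ε ^ 2 * V c j ^ 2 :=
          h2.trans (mul_le_mul_of_nonneg_left h3 (Nat.cast_nonneg _))
      _ = _ := by rw [← Finset.mul_sum, mul_assoc]
  unfold hs
  calc ∑ i, ∑ j, (D * V) i j ^ 2 ≤ ∑ _i : Fin n, ∑ j, n * ε ^ 2 * ∑ c, V c j ^ 2 :=
        Finset.sum_le_sum fun i _ => Finset.sum_le_sum fun j _ => h1 i j
    _ = n * (n * ε ^ 2 * ∑ j, ∑ c, V c j ^ 2) := by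
        rw [Finset.sum_const, Finset.card_univ, Fintype.card_fin, nsmul_eq_mul, ← Finset.mul_sum]
    _ = _ := by rw [Finset.sum_comm]; ring

lemma hs_add_sub (A B : Matrix (Fin n) (Fin n) ℝ) {η : ℝ} (hη : 0 < η) :
    |hs (A + B) - hs A| ≤ η * hs A + (1 + η⁻¹) * hs B := by
  unfold hs
  rw [← Finset.sum_sub_distrib, Finset.mul_sum, Finset.mul_sum, ← Finset.sum_add_distrib]
  refine (Finset.abs_sum_le_sum_abs _ _).trans (Finset.sum_le_sum fun i _ => ?_)
  rw [← Finset.sum_sub_distrib, Finset.mul_sum, Finset.mul_sum, ← Finset.sum_add_distrib]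
  refine (Finset.abs_sum_le_sum_abs _ _).trans (Finset.sum_le_sum fun j _ => ?_)
  rw [Matrix.add_apply]
  have h1 : (A i j + B i j) ^ 2 - A i j ^ 2 = 2 * (A i j * B i j) + B i j ^ 2 := by ring
  rw [h1]
  have h2 : |2 * (A i j * B i j)| ≤ η * A i j ^ 2 + η⁻¹ * B i j ^ 2 := by
    have h3 : 0 ≤ η⁻¹ * (η * |A i j| - |B i j|) ^ 2 :=
      mul_nonneg (inv_nonneg.2 hη.le) (sq_nonneg _)
    have h4 : η⁻¹ * (η * |A i j| - |B i j|) ^ 2 =
        η * |A i j| ^ 2 + η⁻¹ * |B i j| ^ 2 - 2 * (|A i j| * |B i j|) := by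
      field_simp
      ring
    rw [h4, sq_abs, sq_abs] at h3
    rw [abs_mul, abs_mul, abs_of_pos (by norm_num : (0 : ℝ) < 2)]
    linarith
  have h5 : |B i j ^ 2| = B i j ^ 2 := abs_of_nonneg (sq_nonneg _)
  have h6 := abs_add_le (2 * (A i j * B i j)) (B i j ^ 2)
  rw [h5] at h6
  linarith

/-- matrices near an orthogonal matrix nearly preserve the norm -/
lemma near (n : ℕ) {ρ0 : ℝ} (hρ0 : 0 < ρ0) : ∃ ε > 0, ∀ N k V : Matrix (Fin n) (Fin n) ℝ,
    kᵀ * k = 1 → (∀ a b, |N a b - k a b| ≤ ε) → |hs (N * V) - hs V| ≤ ρ0 * hs V := by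
  obtain ⟨c, hc⟩ : ∃ c : ℝ, c = (1 + (ρ0 / 2)⁻¹) * (n * n) + 1 := ⟨_, rfl⟩
  have hc1 : 1 ≤ c := by
    rw [hc]
    have : 0 ≤ (1 + (ρ0 / 2)⁻¹) * ((n : ℝ) * n) := by positivity
    linarith
  have hc0 : 0 < c := by linarith
  refine ⟨min 1 (ρ0 / 2 / c), lt_min one_pos (by positivity), fun N k V hk hN => ?_⟩
  obtain ⟨ε, hε⟩ : ∃ ε : ℝ, ε = min 1 (ρ0 / 2 / c) := ⟨_, rfl⟩
  rw [← hε] at hN
  have hε0 : 0 < ε := by rw [hε]; exact lt_min one_pos (by positivity)
  have hε1 : ε ≤ 1 := by rw [hε]; exact min_le_left _ _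
  have hεc : c * ε ≤ ρ0 / 2 := by
    have : ε ≤ ρ0 / 2 / c := by rw [hε]; exact min_le_right _ _
    rw [le_div_iff₀ hc0] at this
    linarith
  have h1 : N * V = k * V + (N - k) * V := by rw [← Matrix.add_mul, add_sub_cancel]
  have h2 := hs_add_sub (k * V) ((N - k) * V) (half_pos hρ0)
  rw [← h1, hs_orth_mul V hk] at h2
  have h3 := hs_small_mul hε0.le (D := N - k) (fun a b => by
    rw [Matrix.sub_apply]; exact hN a b) V
  refine h2.trans ?_
  have h4 : (1 + (ρ0 / 2)⁻¹) * hs ((N - k) * V) ≤ (ρ0 / 2) * hs V := by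
    have h5 : (1 + (ρ0 / 2)⁻¹) * hs ((N - k) * V) ≤
        (1 + (ρ0 / 2)⁻¹) * ((n * (n * ε ^ 2)) * hs V) :=
      mul_le_mul_of_nonneg_left h3 (by positivity)
    have h6 : (1 + (ρ0 / 2)⁻¹) * ((n * (n * ε ^ 2)) * hs V) =
        ((1 + (ρ0 / 2)⁻¹) * (n * n)) * (ε * ε) * hs V := by ring
    have h7 : ((1 + (ρ0 / 2)⁻¹) * (n * n)) * (ε * ε) ≤ c * ε := by
      have h8 : ((1 + (ρ0 / 2)⁻¹) * ((n : ℝ) * n)) ≤ c := by rw [hc]; linarith
      have h9 : ε * ε ≤ ε := by nlinarith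
      exact mul_le_mul h8 h9 (by positivity) hc0.le
    rw [h6] at h5
    exact h5.trans (mul_le_mul_of_nonneg_right (h7.trans hεc) (hs_nonneg _))
  have h10 : ρ0 * hs V = ρ0 / 2 * hs V + ρ0 / 2 * hs V := by ring
  rw [h10]
  linarith

lemma hs_diag_mul (d : Fin n → ℝ) (V : Matrix (Fin n) (Fin n) ℝ) :
    hs (diagonal d * V) = ∑ i, ∑ j, d i ^ 2 * V i j ^ 2 := by
  unfold hs
  refine Finset.sum_congr rfl fun i _ => Finset.sum_congr rfl fun j _ => ?_
  rw [diagonal_mul, mul_pow]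

/-- changing the exponent by a bounded amount -/
lemma hs_shift {z z' : Fin n → ℝ} {B : ℝ} (hB : ∀ a, z' a ≤ z a + B)
    (V : Matrix (Fin n) (Fin n) ℝ) :
    hs (diagonal (fun a => Real.exp (-z a)) * V) ≤
      Real.exp (2 * B) * hs (diagonal (fun a => Real.exp (-z' a)) * V) := by
  rw [hs_diag_mul, hs_diag_mul, Finset.mul_sum]
  refine Finset.sum_le_sum fun i _ => ?_
  rw [Finset.mul_sum]
  refine Finset.sum_le_sum fun j _ => ?_
  rw [← mul_assoc]
  refine mul_le_mul_of_nonneg_right ?_ (sq_nonneg _)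
  rw [← Real.exp_nat_mul, ← Real.exp_nat_mul, ← Real.exp_add, Real.exp_le_exp]
  push_cast
  linarith [hB i]

lemma hs_diag_zero (V : Matrix (Fin n) (Fin n) ℝ) :
    hs (diagonal (fun a => Real.exp (-(0 : Fin n → ℝ) a)) * V) = hs V := by
  rw [hs_diag_mul]
  unfold hs
  refine Finset.sum_congr rfl fun i _ => Finset.sum_congr rfl fun j _ => ?_
  simp

lemma hs_diag_le {z : Fin n → ℝ} {B : ℝ} (hB : ∀ a, -B ≤ z a)
    (V : Matrix (Fin n) (Fin n) ℝ) :
    hs (diagonal (fun a => Real.exp (-z a)) * V) ≤ Real.exp (2 * B) * hs V := by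
  have := hs_shift (z := z) (z' := 0) (B := B) (fun a => by
    simp only [Pi.zero_apply]; linarith [hB a]) V
  rwa [hs_diag_zero] at this

lemma hs_diag_ge {z : Fin n → ℝ} {B : ℝ} (hB : ∀ a, z a ≤ B)
    (V : Matrix (Fin n) (Fin n) ℝ) :
    Real.exp (-(2 * B)) * hs V ≤ hs (diagonal (fun a => Real.exp (-z a)) * V) := by
  have := hs_shift (z := 0) (z' := z) (B := B) (fun a => by
    simp only [Pi.zero_apply]; linarith [hB a]) V
  rw [hs_diag_zero] at this
  rw [Real.exp_neg, inv_mul_le_iff₀ (Real.exp_pos _)]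
  exact this

/-- the algebraic identity behind the left estimate -/
lemma shift_id {x x' H H' z : Fin n → ℝ} (k : Matrix (Fin n) (Fin n) ℝ)
    (h1 : ∀ a, x' a - H' a = z a) (h2 : ∀ a, x a - H a = z a) :
    diagonal (fun a => Real.exp (-H' a)) *
      (diagonal (fun a => Real.exp (x' a)) * k * diagonal (fun a => Real.exp (-x a))) =
    (diagonal (fun a => Real.exp (z a)) * k * diagonal (fun a => Real.exp (-z a))) *
      diagonal (fun a => Real.exp (-H a)) := by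
  apply Matrix.ext
  intro a b
  rw [diagonal_mul, mul_diagonal, diagonal_mul, mul_diagonal, mul_diagonal, diagonal_mul]
  have e1 : Real.exp (-H' a) * (Real.exp (x' a) * k a b * Real.exp (-x b)) =
      Real.exp (-H' a + x' a) * Real.exp (-x b) * k a b := by rw [Real.exp_add]; ring
  have e2 : Real.exp (z a) * k a b * Real.exp (-z b) * Real.exp (-H b) =
      Real.exp (z a) * Real.exp (-z b + -H b) * k a b := by rw [Real.exp_add]; ring
  rw [e1, e2]
  have e3 : -H' a + x' a = z a := by linarith [h1 a]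
  have e4 : -x b = -z b + -H b := by linarith [h2 b]
  rw [e3, e4]

/-! ### Combinations of the dual basis -/

section comb
variable {r : ℕ}

/-- the size of the dual basis -/
noncomputable def Wm (w : Fin r → Fin n → ℝ) : ℝ := ∑ j, ∑ a, |w j a|

lemma Wm_nonneg (w : Fin r → Fin n → ℝ) : 0 ≤ Wm w :=
  Finset.sum_nonneg fun _ _ => Finset.sum_nonneg fun _ _ => abs_nonneg _

/-- a combination of the dual basis -/
noncomputable def cmb (w : Fin r → Fin n → ℝ) (s : Finset (Fin r)) (c : Fin r → ℝ) :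
    Fin n → ℝ := fun a => ∑ j ∈ s, c j * w j a

lemma cmb_eq (w : Fin r → Fin n → ℝ) (s : Finset (Fin r)) (c : Fin r → ℝ) :
    cmb w s c = ∑ j ∈ s, c j • w j := by
  funext a
  rw [Finset.sum_apply]
  rfl

lemma abs_cmb_le (w : Fin r → Fin n → ℝ) (s : Finset (Fin r)) {c : Fin r → ℝ} {B : ℝ}
    (hB0 : 0 ≤ B) (hB : ∀ j ∈ s, |c j| ≤ B) (a : Fin n) : |cmb w s c a| ≤ B * Wm w := by
  unfold cmb
  refine (Finset.abs_sum_le_sum_abs _ _).trans ?_
  calc ∑ j ∈ s, |c j * w j a| ≤ ∑ j ∈ s, B * |w j a| := Finset.sum_le_sum fun j hj => by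
        rw [abs_mul]; exact mul_le_mul_of_nonneg_right (hB j hj) (abs_nonneg _)
    _ ≤ ∑ j, B * |w j a| := Finset.sum_le_sum_of_subset_of_nonneg (Finset.subset_univ _)
        fun _ _ _ => mul_nonneg hB0 (abs_nonneg _)
    _ ≤ ∑ j, B * ∑ a, |w j a| := Finset.sum_le_sum fun j _ =>
        mul_le_mul_of_nonneg_left (Finset.single_le_sum (f := fun a => |w j a|)
          (fun _ _ => abs_nonneg _) (Finset.mem_univ a)) hB0
    _ = _ := by rw [← Finset.mul_sum]; rfl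

lemma abs_cmb_le_sum (w : Fin r → Fin n → ℝ) (s : Finset (Fin r)) (c : Fin r → ℝ)
    (a : Fin n) : |cmb w s c a| ≤ (∑ j, |c j|) * Wm w :=
  abs_cmb_le w s (Finset.sum_nonneg fun _ _ => abs_nonneg _) (fun j _ =>
    Finset.single_le_sum (f := fun j => |c j|) (fun _ _ => abs_nonneg _) (Finset.mem_univ j)) a

lemma cmb_add (w : Fin r → Fin n → ℝ) (s : Finset (Fin r)) (c d : Fin r → ℝ) (a : Fin n) :
    cmb w s (c + d) a = cmb w s c a + cmb w s d a := by
  unfold cmb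
  rw [← Finset.sum_add_distrib]
  exact Finset.sum_congr rfl fun j _ => by rw [Pi.add_apply, add_mul]

end comb

end Vale.Agent.P092.H270.Re
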