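import Vale.Agent.P092.H270.Re.Basic

/-!
P092, project RE (helper270): the key lemma. If `κ` is orthogonal, `x` is dominant, the matrix
`exp(x) κ exp(-x)` is bounded and `α_j(x)` is large, then `κ` nearly commutes with `w_j`.
-/

set_option linter.all false

open Matrix Filter Topology

namespace Vale.Agent.P092.H270.Re

open Vale.Agent.P092.H793.Re

variable {n : ℕ} {G : Type} [Group G] [TopologicalSpace G] {ρ : G →* SLn n}
  {h : Fin n → ℝ} {r : ℕ} {p q : Fin r → Fin n} {w : Fin r → Fin n → ℝ} {E : Fin r → Mat n}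

/-- conjugation by a diagonal exponential -/
lemma conj_exp {x : Fin n → ℝ} {e : G} (he : mm ρ e = diagonal (fun a => Real.exp (x a)))
    (he' : mm ρ e⁻¹ = diagonal (fun a => Real.exp (-x a))) (g : G) (a b : Fin n) :
    mm ρ (e * g * e⁻¹) a b = Real.exp (x a - x b) * mm ρ g a b := by
  rw [mm_mul, mm_mul, he, he', mul_diagonal, diagonal_mul, sub_eq_add_neg, Real.exp_add]
  ring

/-- limits of dominated sequences -/
lemma eq_zero_of_decay {u z : ℕ → ℝ} {v C : ℝ} (hu : Tendsto u atTop (𝓝 v))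
    (hz : Tendsto z atTop atTop) (hb : ∀ k, |u k| ≤ C * Real.exp (-z k)) : v = 0 := by
  have h1 : Tendsto (fun k => C * Real.exp (-z k)) atTop (𝓝 0) := by
    have := (Real.tendsto_exp_neg_atTop_nhds_zero.comp hz).const_mul C
    simpa using this
  have h2 : Tendsto (fun k => |u k|) atTop (𝓝 0) :=
    squeeze_zero (fun k => abs_nonneg _) hb h1
  exact tendsto_nhds_unique hu ((tendsto_zero_iff_abs_tendsto_zero _).2 h2)

lemma trace_conj_ort {κ : G} (hκ : Ort ρ κ) (A B : Mat n) :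
    trace ((mm ρ κ * A * (mm ρ κ)ᵀ) * (mm ρ κ * B * (mm ρ κ)ᵀ)) = trace (A * B) := by
  have h1 : (mm ρ κ * A * (mm ρ κ)ᵀ) * (mm ρ κ * B * (mm ρ κ)ᵀ) =
      mm ρ κ * (A * B * (mm ρ κ)ᵀ) := by
    have := ort_transpose_mul hκ
    calc _ = mm ρ κ * A * ((mm ρ κ)ᵀ * mm ρ κ) * B * (mm ρ κ)ᵀ := by
          simp only [Matrix.mul_assoc]
      _ = _ := by rw [this]; simp only [Matrix.mul_assoc, Matrix.mul_one, Matrix.one_mul]
  rw [h1, trace_mul_comm, Matrix.mul_assoc, ort_transpose_mul hκ, Matrix.mul_one]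

/-- entries of the adjugate of bounded matrices are bounded -/
lemma adj_bound (n : ℕ) (C : ℝ) : ∃ C2 : ℝ, 0 ≤ C2 ∧ ∀ M : Mat n, (∀ a b, |M a b| ≤ C) →
    ∀ a b, |M.adjugate a b| ≤ C2 := by
  have h1 : ∀ a b : Fin n, ∃ c : ℝ, ∀ M : Mat n, (∀ a b, |M a b| ≤ C) →
      |M.adjugate a b| ≤ c := by
    intro a b
    have hc : Continuous (fun M : Mat n => M.adjugate a b) := by fun_prop
    obtain ⟨c, hc⟩ := (isCompact_box n C).exists_bound_of_continuousOn hc.continuousOn
    exact ⟨c, fun M hM => hc M hM⟩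
  choose c hc using h1
  refine ⟨∑ a, ∑ b, |c a b|, Finset.sum_nonneg fun a _ => Finset.sum_nonneg fun b _ =>
    abs_nonneg _, fun M hM a b => (hc a b M hM).trans ((le_abs_self _).trans ?_)⟩
  refine (Finset.single_le_sum (f := fun b => |c a b|) (fun b _ => abs_nonneg _)
    (Finset.mem_univ b)).trans ?_
  exact Finset.single_le_sum (f := fun a => ∑ b, |c a b|)
    (fun a _ => Finset.sum_nonneg fun b _ => abs_nonneg _) (Finset.mem_univ a)

/-- entries of products of three bounded matrices -/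
lemma mul3_bound {A M B : Mat n} {C1 C2 C3 : ℝ} (h1 : 0 ≤ C1) (h2 : 0 ≤ C2)
    (hA : ∀ a b, |A a b| ≤ C1)
    (hM : ∀ a b, |M a b| ≤ C2) (hB : ∀ a b, |B a b| ≤ C3) (a b : Fin n) :
    |(A * M * B) a b| ≤ n * (n * (C1 * C2) * C3) := by
  have e1 : ∀ c, |(A * M) a c| ≤ n * (C1 * C2) := fun c => by
    rw [Matrix.mul_apply]
    refine (Finset.abs_sum_le_sum_abs _ _).trans ?_
    calc _ ≤ ∑ _i : Fin n, C1 * C2 := Finset.sum_le_sum fun i _ => by
          rw [abs_mul]; exact mul_le_mul (hA _ _) (hM _ _) (abs_nonneg _) h1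
      _ = _ := by simp
  rw [Matrix.mul_apply]
  refine (Finset.abs_sum_le_sum_abs _ _).trans ?_
  calc _ ≤ ∑ _i : Fin n, n * (C1 * C2) * C3 := Finset.sum_le_sum fun i _ => by
        rw [abs_mul]
        exact mul_le_mul (e1 _) (hB _ _) (abs_nonneg _) (by positivity)
    _ = _ := by simp

/-- the gaps along a root which involves `α_j` -/
lemma le_root_sum {x : Fin n → ℝ} (hx : Dom ρ p q x) {m : Fin r → ℕ} {j : Fin r}
    (hm : m j ≠ 0) : x (p j) - x (q j) ≤ ∑ i, (m i : ℝ) * (x (p i) - x (q i)) := by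
  have h1 : (1 : ℝ) ≤ m j := by exact_mod_cast Nat.one_le_iff_ne_zero.2 hm
  have h2 : (m j : ℝ) * (x (p j) - x (q j)) ≤ ∑ i, (m i : ℝ) * (x (p i) - x (q i)) :=
    Finset.single_le_sum (f := fun i => (m i : ℝ) * (x (p i) - x (q i)))
      (fun i _ => mul_nonneg (Nat.cast_nonneg _) (hx.2 i)) (Finset.mem_univ j)
  exact (le_mul_of_one_le_left (hx.2 j) h1).trans h2

lemma conj_entry (x : Fin n → ℝ) (A : Mat n) (a b : Fin n) :
    (diagonal (fun a => Real.exp (x a)) * A * diagonal (fun a => Real.exp (-x a))) a b =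
      Real.exp (x a - x b) * A a b := by
  rw [mul_diagonal, diagonal_mul, sub_eq_add_neg, Real.exp_add]
  ring

lemma E_entry (hS : Sr ρ h p q w E) {x : Fin n → ℝ} (hx : Lie ρ (diagonal x)) (i : Fin r)
    {a b : Fin n} (hab : E i a b ≠ 0) : x a - x b = x (p i) - x (q i) := by
  have h1 := congrFun (congrFun (hS.Ew i x hx) a) b
  rw [Matrix.sub_apply, diagonal_mul, mul_diagonal, Matrix.smul_apply, smul_eq_mul] at h1
  have h2 : (x a - x b - (x (p i) - x (q i))) * E i a b = 0 := by linarith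
  rcases mul_eq_zero.1 h2 with h3 | h3
  · linarith
  · exact absurd h3 hab

lemma exp_E (hS : Sr ρ h p q w E) {x : Fin n → ℝ} (hx : Lie ρ (diagonal x)) (i : Fin r) :
    diagonal (fun a => Real.exp (-x a)) * (E i)ᵀ * diagonal (fun a => Real.exp (x a)) =
      Real.exp (x (p i) - x (q i)) • (E i)ᵀ := by
  apply Matrix.ext
  intro a b
  rw [mul_diagonal, diagonal_mul, Matrix.smul_apply, transpose_apply, smul_eq_mul]
  by_cases hz : E i b a = 0
  · rw [hz]; ring
  · rw [← E_entry hS hx i hz, sub_eq_add_neg, Real.exp_add]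
    ring

/-- **The limit**: an orthogonal `κ` which is a limit of `κ_k` with `exp(x_k) κ_k exp(-x_k)`
bounded, `x_k` dominant and `α_j(x_k) → ∞`, commutes with `w_j`. -/
theorem limit_comm (hB : Bnd) (hρ : RS ρ) (hD : Dg ρ h) (hS : Sr ρ h p q w E) {C : ℝ}
    {u : ℕ → G} {x : ℕ → Fin n → ℝ} {κ : G} (hu : ∀ k, Ort ρ (u k))
    (hx : ∀ k, Dom ρ p q (x k))
    (hC : ∀ k a b, |Real.exp (x k a - x k b) * mm ρ (u k) a b| ≤ C)
    (hlim : Tendsto (fun k => mm ρ (u k)) atTop (𝓝 (mm ρ κ))) {j : Fin r}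
    (hj : Tendsto (fun k => x k (p j) - x k (q j)) atTop atTop) :
    mm ρ κ * diagonal (w j) = diagonal (w j) * mm ρ κ := by
  classical
  have hκ : Ort ρ κ := ort_of_tendsto hu hlim
  have hκ1 : mm ρ κ⁻¹ = (mm ρ κ)ᵀ := ort_inv hκ
  have hκκ : mm ρ κ * (mm ρ κ)ᵀ = 1 := ort_mul_transpose hκ
  have hκκ' : (mm ρ κ)ᵀ * mm ρ κ = 1 := ort_transpose_mul hκ
  choose e he he' using fun k => exists_exp (hx k).1
  -- bounded conjugates
  have hN : ∀ k a b, |mm ρ (e k * u k * (e k)⁻¹) a b| ≤ C := fun k a b => by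
    rw [conj_exp (he k) (he' k)]; exact hC k a b
  obtain ⟨C2, hC20, hC2⟩ := adj_bound n C
  have hN' : ∀ k a b, |mm ρ (e k * u k * (e k)⁻¹)⁻¹ a b| ≤ C2 := fun k a b => by
    rw [mm_inv_adj]; exact hC2 _ (hN k) a b
  have hNe : ∀ k, mm ρ (e k * u k * (e k)⁻¹) = diagonal (fun a => Real.exp (x k a)) *
      mm ρ (u k) * diagonal (fun a => Real.exp (-x k a)) := fun k => by
    rw [mm_mul, mm_mul, he, he']
  have hNe' : ∀ k, mm ρ (e k * u k * (e k)⁻¹)⁻¹ = diagonal (fun a => Real.exp (x k a)) *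
      (mm ρ (u k))ᵀ * diagonal (fun a => Real.exp (-x k a)) := fun k => by
    rw [_root_.mul_inv_rev, _root_.mul_inv_rev, inv_inv, ← mul_assoc, mm_mul, mm_mul, he, he',
      ort_inv (hu k)]
  have hee : ∀ k, diagonal (fun a => Real.exp (-x k a)) * diagonal (fun a => Real.exp (x k a)) =
      (1 : Mat n) := fun k => by rw [← he, ← he', mm_inv_mul]
  -- conjugates by limits
  have hconj : ∀ A : Mat n, Tendsto (fun k => (mm ρ (u k))ᵀ * A * mm ρ (u k)) atTop
      (𝓝 ((mm ρ κ)ᵀ * A * mm ρ κ)) := fun A => by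
    have hc : Continuous (fun M : Mat n => Mᵀ * A * M) := by fun_prop
    exact (hc.tendsto _).comp hlim
  have hlie : ∀ A : Mat n, Lie ρ A → Lie ρ ((mm ρ κ)ᵀ * A * mm ρ κ) := fun A hA => by
    have := lie_conj κ⁻¹ hA
    rwa [inv_inv, hκ1] at this
  -- growth
  have hgrow : ∀ m : Fin r → ℕ, m j ≠ 0 →
      Tendsto (fun k => ∑ i, (m i : ℝ) * (x k (p i) - x k (q i))) atTop atTop := fun m hm =>
    tendsto_atTop_mono (fun k => le_root_sum (hx k) hm) hj
  -- step a: the conjugate of `w j` is diagonal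
  have hbda : ∃ C3 : ℝ, ∀ k a b, |((mm ρ (u k))ᵀ * diagonal h * mm ρ (u k)) a b| ≤
      C3 * Real.exp (-(x k a - x k b)) := by
    obtain ⟨Ch, hCh0, hCh⟩ : ∃ Ch : ℝ, 0 ≤ Ch ∧ ∀ a b, |(diagonal h : Mat n) a b| ≤ Ch := by
      refine ⟨∑ a, |h a|, Finset.sum_nonneg fun _ _ => abs_nonneg _, fun a b => ?_⟩
      by_cases hab : a = b
      · subst hab
        rw [diagonal_apply_eq]
        exact Finset.single_le_sum (f := fun a => |h a|) (fun _ _ => abs_nonneg _)
          (Finset.mem_univ a)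
      · rw [diagonal_apply_ne _ hab, abs_zero]
        exact Finset.sum_nonneg fun _ _ => abs_nonneg _
    refine ⟨n * (n * (C2 * Ch) * C), fun k a b => ?_⟩
    have h1 := mul3_bound hC20 hCh0 (hN' k) hCh (hN k) a b
    have h2 : mm ρ (e k * u k * (e k)⁻¹)⁻¹ * diagonal h * mm ρ (e k * u k * (e k)⁻¹) =
        diagonal (fun a => Real.exp (x k a)) * ((mm ρ (u k))ᵀ * diagonal h * mm ρ (u k)) *
        diagonal (fun a => Real.exp (-x k a)) := by
      have h3 : diagonal (fun a => Real.exp (-x k a)) * diagonal h *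
          diagonal (fun a => Real.exp (x k a)) = diagonal h := by
        rw [diagonal_mul_diagonal, diagonal_mul_diagonal]
        congr 1
        funext c
        rw [mul_comm (Real.exp _), mul_assoc, ← Real.exp_add, neg_add_cancel, Real.exp_zero,
          mul_one]
      rw [hNe, hNe']
      calc _ = diagonal (fun a => Real.exp (x k a)) * (mm ρ (u k))ᵀ *
            (diagonal (fun a => Real.exp (-x k a)) * diagonal h *
            diagonal (fun a => Real.exp (x k a))) * mm ρ (u k) *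
            diagonal (fun a => Real.exp (-x k a)) := by simp only [Matrix.mul_assoc]
        _ = _ := by rw [h3]; simp only [Matrix.mul_assoc]
    rw [h2, conj_entry, abs_mul, abs_of_pos (Real.exp_pos _)] at h1
    rw [Real.exp_neg, ← div_eq_mul_inv, le_div_iff₀ (Real.exp_pos _), mul_comm]
    exact h1
  obtain ⟨C3, hC3⟩ := hbda
  have hsymm : ∀ k a b, ((mm ρ (u k))ᵀ * diagonal h * mm ρ (u k)) b a =
      ((mm ρ (u k))ᵀ * diagonal h * mm ρ (u k)) a b := fun k a b => by
    have h1 : ((mm ρ (u k))ᵀ * diagonal h * mm ρ (u k))ᵀ =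
        (mm ρ (u k))ᵀ * diagonal h * mm ρ (u k) := by
      rw [transpose_mul, transpose_mul, transpose_transpose, diagonal_transpose,
        Matrix.mul_assoc]
    exact congrFun (congrFun h1 a) b
  have hVa : ∀ a b, ((mm ρ κ)ᵀ * diagonal h * mm ρ κ) a b ≠ 0 → w j a = w j b := by
    intro a b hab
    obtain ⟨m, hm⟩ := entry_cases hρ hD hS (hlie _ hD.lie) hab
    by_cases hmj : m j = 0
    · have h1 := w_sub hS m j
      rw [hmj, Nat.cast_zero] at h1
      rcases hm with hm | hm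
      · have := hm _ (hS.wl j)
        rw [h1] at this
        linarith
      · have := hm _ (hS.wl j)
        rw [h1] at this
        linarith
    · exfalso
      refine hab (eq_zero_of_decay (entry_tendsto (hconj (diagonal h)) a b) (hgrow m hmj)
        (C := C3) fun k => ?_)
      rcases hm with hm | hm
      · rw [← hm _ (hx k).1]
        exact hC3 k a b
      · have h1 := hm _ (hx k).1
        rw [← hsymm k a b]
        have h2 : ∑ i, (m i : ℝ) * (x k (p i) - x k (q i)) = x k b - x k a := by linarith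
        rw [h2]
        exact hC3 k b a
  have hcommV : ((mm ρ κ)ᵀ * diagonal h * mm ρ κ) * diagonal (w j) =
      diagonal (w j) * ((mm ρ κ)ᵀ * diagonal h * mm ρ κ) := by
    apply Matrix.ext
    intro a b
    rw [mul_diagonal, diagonal_mul]
    by_cases hab : ((mm ρ κ)ᵀ * diagonal h * mm ρ κ) a b = 0
    · rw [hab]; ring
    · rw [hVa a b hab]; ring
  have hY1 : mm ρ κ * diagonal (w j) * (mm ρ κ)ᵀ * diagonal h =
      diagonal h * (mm ρ κ * diagonal (w j) * (mm ρ κ)ᵀ) := by
    calc _ = mm ρ κ * (diagonal (w j) * ((mm ρ κ)ᵀ * diagonal h * mm ρ κ)) * (mm ρ κ)ᵀ := by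
          simp only [Matrix.mul_assoc, hκκ, Matrix.mul_one]
      _ = (mm ρ κ * (mm ρ κ)ᵀ) * diagonal h * mm ρ κ * diagonal (w j) * (mm ρ κ)ᵀ := by
          rw [← hcommV]; simp only [Matrix.mul_assoc]
      _ = _ := by rw [hκκ, Matrix.one_mul]; simp only [Matrix.mul_assoc]
  have hYlie : Lie ρ (mm ρ κ * diagonal (w j) * (mm ρ κ)ᵀ) := by
    have := lie_conj κ (hS.wl j)
    rwa [hκ1] at this
  obtain ⟨y, hy⟩ := hD.cent _ hYlie (by
    rw [transpose_mul, transpose_mul, transpose_transpose, diagonal_transpose,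
      Matrix.mul_assoc]) hY1
  have hylie : Lie ρ (diagonal y) := hy ▸ hYlie
  -- step b: it is dominant
  have hdom : ∀ i, 0 ≤ y (p i) - y (q i) := by
    intro i
    have hbd : ∃ C4 : ℝ, ∀ k a b, |((mm ρ (u k))ᵀ * E i * mm ρ (u k)) a b| ≤
        C4 * Real.exp (x k a - x k b) := by
      obtain ⟨Ch, hCh0, hCh⟩ : ∃ Ch : ℝ, 0 ≤ Ch ∧ ∀ a b, |((E i)ᵀ : Mat n) a b| ≤ Ch := by
        refine ⟨∑ a, ∑ b, |(E i)ᵀ a b|, Finset.sum_nonneg fun _ _ =>
          Finset.sum_nonneg fun _ _ => abs_nonneg _, fun a b => ?_⟩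
        refine (Finset.single_le_sum (f := fun b => |(E i)ᵀ a b|) (fun b _ => abs_nonneg _)
          (Finset.mem_univ b)).trans ?_
        exact Finset.single_le_sum (f := fun a => ∑ b, |(E i)ᵀ a b|)
          (fun a _ => Finset.sum_nonneg fun b _ => abs_nonneg _) (Finset.mem_univ a)
      refine ⟨n * (n * (C2 * Ch) * C), fun k a b => ?_⟩
      have h1 := mul3_bound hC20 hCh0 (hN' k) hCh (hN k) b a
      have h2 : mm ρ (e k * u k * (e k)⁻¹)⁻¹ * (E i)ᵀ * mm ρ (e k * u k * (e k)⁻¹) =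
          Real.exp (x k (p i) - x k (q i)) • (diagonal (fun a => Real.exp (x k a)) *
          ((mm ρ (u k))ᵀ * (E i)ᵀ * mm ρ (u k)) * diagonal (fun a => Real.exp (-x k a))) := by
        rw [hNe, hNe']
        calc _ = diagonal (fun a => Real.exp (x k a)) * (mm ρ (u k))ᵀ *
              (diagonal (fun a => Real.exp (-x k a)) * (E i)ᵀ *
              diagonal (fun a => Real.exp (x k a))) * mm ρ (u k) *
              diagonal (fun a => Real.exp (-x k a)) := by simp only [Matrix.mul_assoc]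
          _ = _ := by
            rw [exp_E hS (hx k).1]
            simp only [Matrix.mul_smul, Matrix.smul_mul, Matrix.mul_assoc]
      have h3 : ((mm ρ (u k))ᵀ * (E i)ᵀ * mm ρ (u k)) b a =
          ((mm ρ (u k))ᵀ * E i * mm ρ (u k)) a b := by
        have h4 : ((mm ρ (u k))ᵀ * E i * mm ρ (u k))ᵀ =
            (mm ρ (u k))ᵀ * (E i)ᵀ * mm ρ (u k) := by
          rw [transpose_mul, transpose_mul, transpose_transpose, Matrix.mul_assoc]
        rw [← h4, transpose_apply]
      rw [h2, Matrix.smul_apply, conj_entry, h3, smul_eq_mul, abs_mul, abs_mul,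
        abs_of_pos (Real.exp_pos _), abs_of_pos (Real.exp_pos _)] at h1
      have h5 : 1 ≤ Real.exp (x k (p i) - x k (q i)) := Real.one_le_exp ((hx k).2 i)
      have h6 : Real.exp (x k b - x k a) * |((mm ρ (u k))ᵀ * E i * mm ρ (u k)) a b| ≤
          n * (n * (C2 * Ch) * C) :=
        (le_mul_of_one_le_left (by positivity) h5).trans h1
      have h7 : x k a - x k b = -(x k b - x k a) := by ring
      rw [h7, Real.exp_neg, ← div_eq_mul_inv, le_div_iff₀ (Real.exp_pos _), mul_comm]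
      exact h6
    obtain ⟨C4, hC4⟩ := hbd
    have hV : ∀ a b, ((mm ρ κ)ᵀ * E i * mm ρ κ) a b ≠ 0 → w j b ≤ w j a := by
      intro a b hab
      obtain ⟨m, hm⟩ := entry_cases hρ hD hS (hlie _ (hS.El i)) hab
      have h1 := w_sub hS m j
      rcases hm with hm | hm
      · have h2 := hm _ (hS.wl j)
        rw [h1] at h2
        have h3 : (0 : ℝ) ≤ m j := Nat.cast_nonneg _
        linarith
      · by_cases hmj : m j = 0
        · have h2 := hm _ (hS.wl j)
          rw [h1, hmj, Nat.cast_zero] at h2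
          linarith
        · exfalso
          refine hab (eq_zero_of_decay (entry_tendsto (hconj (E i)) a b) (hgrow m hmj)
            (C := C4) fun k => ?_)
          have h2 := hC4 k a b
          rwa [hm _ (hx k).1] at h2
    -- the quadratic form
    obtain ⟨V, hVd⟩ : ∃ V : Mat n, V = (mm ρ κ)ᵀ * E i * mm ρ κ := ⟨_, rfl⟩
    have hE : E i = mm ρ κ * V * (mm ρ κ)ᵀ := by
      rw [hVd]
      calc E i = (mm ρ κ * (mm ρ κ)ᵀ) * E i * (mm ρ κ * (mm ρ κ)ᵀ) := by
            rw [hκκ, Matrix.one_mul, Matrix.mul_one]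
        _ = _ := by simp only [Matrix.mul_assoc]
    have hEt : (E i)ᵀ = mm ρ κ * Vᵀ * (mm ρ κ)ᵀ := by
      rw [hE, transpose_mul, transpose_mul, transpose_transpose, Matrix.mul_assoc]
    have h1 := hS.Ew i y hylie
    rw [← hy] at h1
    have h2 : mm ρ κ * diagonal (w j) * (mm ρ κ)ᵀ * E i -
        E i * (mm ρ κ * diagonal (w j) * (mm ρ κ)ᵀ) =
        mm ρ κ * (diagonal (w j) * V - V * diagonal (w j)) * (mm ρ κ)ᵀ := by
      rw [hE, Matrix.mul_sub, Matrix.sub_mul]
      congr 1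
      · calc _ = mm ρ κ * diagonal (w j) * ((mm ρ κ)ᵀ * mm ρ κ) * V * (mm ρ κ)ᵀ := by
              simp only [Matrix.mul_assoc]
          _ = _ := by rw [hκκ', Matrix.mul_one]; simp only [Matrix.mul_assoc]
      · calc _ = mm ρ κ * V * ((mm ρ κ)ᵀ * mm ρ κ) * diagonal (w j) * (mm ρ κ)ᵀ := by
              simp only [Matrix.mul_assoc]
          _ = _ := by rw [hκκ', Matrix.mul_one]; simp only [Matrix.mul_assoc]
    rw [h2] at h1
    have h3 : trace ((diagonal (w j) * V - V * diagonal (w j)) * Vᵀ) =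
        (y (p i) - y (q i)) * trace (E i * (E i)ᵀ) := by
      have h4 := congrArg (fun M => trace (M * (E i)ᵀ)) h1
      simp only [smul_mul, trace_smul, smul_eq_mul] at h4
      rw [hEt, trace_conj_ort hκ, ← hEt] at h4
      exact h4
    have h4 : 0 ≤ trace ((diagonal (w j) * V - V * diagonal (w j)) * Vᵀ) := by
      rw [trace]
      refine Finset.sum_nonneg fun a _ => ?_
      rw [diag_apply, Matrix.mul_apply]
      refine Finset.sum_nonneg fun b _ => ?_
      rw [Matrix.sub_apply, diagonal_mul, mul_diagonal, transpose_apply]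
      by_cases hab : V a b = 0
      · rw [hab]; simp
      · have h5 := hV a b (by rw [← hVd]; exact hab)
        have h6 : (w j a * V a b - V a b * w j b) * V a b = (w j a - w j b) * (V a b * V a b) := by
          ring
        rw [h6]
        exact mul_nonneg (sub_nonneg.2 h5) (mul_self_nonneg _)
    have h5 : 0 < trace (E i * (E i)ᵀ) := by
      have h6 : ∃ a b, E i a b ≠ 0 := by
        by_contra hcon
        push Not at hcon
        exact hS.En i (Matrix.ext fun a b => hcon a b)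
      obtain ⟨a, b, hab⟩ := h6
      rw [trace]
      refine Finset.sum_pos' (fun a _ => ?_) ⟨a, Finset.mem_univ _, ?_⟩
      · rw [diag_apply, Matrix.mul_apply]
        exact Finset.sum_nonneg fun b _ => mul_self_nonneg _
      · rw [diag_apply, Matrix.mul_apply]
        refine Finset.sum_pos' (fun b _ => mul_self_nonneg _) ⟨b, Finset.mem_univ _, ?_⟩
        exact mul_self_pos.2 hab
    rw [h3] at h4
    exact nonneg_of_mul_nonneg_left h4 h5
  -- step c: uniqueness
  have hsw : ∀ s : ℝ, 0 ≤ s → Dom ρ p q (s • w j) := fun s hs => by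
    refine ⟨lie_diag_smul (hS.wl j) s, fun i => ?_⟩
    rw [Pi.smul_apply, Pi.smul_apply, ← smul_sub, hS.dual, smul_eq_mul]
    split_ifs <;> simp [hs]
  have hsy : ∀ s : ℝ, 0 ≤ s → Dom ρ p q (s • y) := fun s hs => by
    refine ⟨lie_diag_smul hylie s, fun i => ?_⟩
    rw [Pi.smul_apply, Pi.smul_apply, ← smul_sub, smul_eq_mul]
    exact mul_nonneg hs (hdom i)
  obtain ⟨C', hC'⟩ := hB ρ h p q w E hρ hD hS 1
  have hexp : ∀ s : ℝ, diagonal (fun a => Real.exp ((s • y) a)) =
      mm ρ κ * diagonal (fun a => Real.exp ((s • w j) a)) * mm ρ κ⁻¹ := fun s => by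
    have hU : IsUnit (mm ρ κ) := IsUnit.of_mul_eq_one _ (mm_mul_inv κ)
    have hi : (mm ρ κ)⁻¹ = mm ρ κ⁻¹ := Matrix.inv_eq_right_inv (mm_mul_inv κ)
    rw [← exp_diag, ← exp_diag, ← hi, ← Matrix.exp_conj _ _ hU, hi, hκ1]
    congr 1
    rw [diagonal_smul, diagonal_smul, ← hy, Matrix.mul_smul, Matrix.smul_mul]
  have hall : ∀ s : ℝ, 0 ≤ s → ∀ a, |s * (w j a - y a)| ≤ C' := fun s hs a => by
    have := hC' κ κ⁻¹ (s • w j) (s • y) (fun a b => ort_entry hκ a b)
      (fun a b => ort_entry (ort_of_inv hκ) a b) (hsw s hs) (hsy s hs) (hexp s) a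
    rw [Pi.smul_apply, Pi.smul_apply, smul_eq_mul, smul_eq_mul] at this
    rwa [mul_sub]
  have hwy : y = w j := by
    funext a
    by_contra hne
    have h1 : 0 < |w j a - y a| := abs_pos.2 (sub_ne_zero.2 fun hh => hne hh.symm)
    have hC0 : 0 ≤ C' := (abs_nonneg _).trans (hall 0 le_rfl a)
    have h2 := hall ((C' + 1) / |w j a - y a|) (by positivity) a
    rw [abs_mul, abs_of_nonneg (by positivity : 0 ≤ (C' + 1) / |w j a - y a|),
      div_mul_cancel₀ _ h1.ne'] at h2
    linarith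
  rw [hwy] at hy
  calc mm ρ κ * diagonal (w j) = mm ρ κ * diagonal (w j) * ((mm ρ κ)ᵀ * mm ρ κ) := by
        rw [hκκ', Matrix.mul_one]
    _ = mm ρ κ * diagonal (w j) * (mm ρ κ)ᵀ * mm ρ κ := by simp only [Matrix.mul_assoc]
    _ = _ := by rw [hy]

end Vale.Agent.P092.H270.Re
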