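import Vale.Agent.P092.H270.Re.Upper

/-!
P092, project RE (helper270): uniform versions of the key lemmas.
-/

set_option linter.all false

open Matrix Filter Topology

namespace Vale.Agent.P092.H270.Re

open Vale.Agent.P092.H793.Re

variable {n : ℕ} {G : Type} [Group G] [TopologicalSpace G] {ρ : G →* SLn n}
  {h : Fin n → ℝ} {r : ℕ} {p q : Fin r → Fin n} {w : Fin r → Fin n → ℝ} {E : Fin r → Mat n}

lemma tendsto_subseq_atTop {f : ℕ → ℝ} (hf : ∀ k : ℕ, (k : ℝ) ≤ f k) {φ : ℕ → ℕ}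
    (hφ : StrictMono φ) : Tendsto (fun k => f (φ k)) atTop atTop := by
  have h1 : Tendsto (fun k => ((φ k : ℕ) : ℝ)) atTop atTop :=
    tendsto_natCast_atTop_atTop.comp hφ.tendsto_atTop
  exact tendsto_atTop_mono (fun k => hf (φ k)) h1

lemma le_of_limit {f : ℕ → ℝ} {v ε : ℝ} (hf : Tendsto f atTop (𝓝 v)) (hε : 0 < ε)
    (h : ∀ k, ε < |f k|) : v ≠ 0 := by
  intro hv
  rw [hv] at hf
  have h1 : Tendsto (fun k => |f k|) atTop (𝓝 |0|) := hf.abs
  rw [abs_zero] at h1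
  have h2 := ge_of_tendsto h1 (Eventually.of_forall fun k => (h k).le)
  linarith

/-- **(U1)**: if `exp(x) κ exp(-x)` is bounded and `α_j(x)` is large then `κ` nearly commutes with
`w_j`. -/
theorem unif_comm (hB : Bnd) (hρ : RS ρ) (hD : Dg ρ h) (hS : Sr ρ h p q w E) (C : ℝ) {ε : ℝ}
    (hε : 0 < ε) : ∃ R : ℝ, ∀ (κ : G) (x : Fin n → ℝ), Ort ρ κ → Dom ρ p q x →
      (∀ a b, |Real.exp (x a - x b) * mm ρ κ a b| ≤ C) → ∀ j, R ≤ x (p j) - x (q j) →
      ∀ a b, w j a ≠ w j b → |mm ρ κ a b| ≤ ε := by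
  classical
  have h1 : ∀ (j : Fin r) (a b : Fin n), w j a ≠ w j b → ∃ R : ℝ, ∀ (κ : G) (x : Fin n → ℝ),
      Ort ρ κ → Dom ρ p q x → (∀ a b, |Real.exp (x a - x b) * mm ρ κ a b| ≤ C) →
      R ≤ x (p j) - x (q j) → |mm ρ κ a b| ≤ ε := by
    intro j a b hab
    by_contra hcon
    push Not at hcon
    choose u x hu hx hC hR hbig using fun k : ℕ => hcon k
    obtain ⟨κ, φ, hφ, hlim⟩ := exists_subseq hρ u (fun k => ort_entry (hu k))
    have h2 := limit_comm hB hρ hD hS (u := fun k => u (φ k)) (x := fun k => x (φ k))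
      (fun k => hu _) (fun k => hx _) (fun k => hC _) hlim (j := j)
      (tendsto_subseq_atTop (f := fun k => x k (p j) - x k (q j)) hR hφ)
    have h3 := congrFun (congrFun h2 a) b
    rw [mul_diagonal, diagonal_mul] at h3
    have h4 : (w j a - w j b) * mm ρ κ a b = 0 := by linarith
    rcases mul_eq_zero.1 h4 with h5 | h5
    · exact hab (sub_eq_zero.1 h5)
    · exact le_of_limit (entry_tendsto hlim a b) hε (fun k => hbig (φ k)) h5
  have h2 : ∀ (j : Fin r) (a b : Fin n), ∃ R : ℝ, ∀ (κ : G) (x : Fin n → ℝ),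
      Ort ρ κ → Dom ρ p q x → (∀ a b, |Real.exp (x a - x b) * mm ρ κ a b| ≤ C) →
      R ≤ x (p j) - x (q j) → w j a ≠ w j b → |mm ρ κ a b| ≤ ε := by
    intro j a b
    by_cases hab : w j a = w j b
    · exact ⟨0, fun κ x _ _ _ _ hne => absurd hab hne⟩
    · obtain ⟨R, hR⟩ := h1 j a b hab
      exact ⟨R, fun κ x a1 a2 a3 a4 _ => hR κ x a1 a2 a3 a4⟩
  choose R hR using h2
  refine ⟨∑ j, ∑ a, ∑ b, |R j a b|, fun κ x hκ hx hC j hj a b hab => ?_⟩
  refine hR j a b κ x hκ hx hC (le_trans ?_ hj) hab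
  refine (le_abs_self _).trans ?_
  refine (Finset.single_le_sum (f := fun b => |R j a b|) (fun _ _ => abs_nonneg _)
    (Finset.mem_univ b)).trans ?_
  refine (Finset.single_le_sum (f := fun a => ∑ b, |R j a b|)
    (fun _ _ => Finset.sum_nonneg fun _ _ => abs_nonneg _) (Finset.mem_univ a)).trans ?_
  exact Finset.single_le_sum (f := fun j => ∑ a, ∑ b, |R j a b|)
    (fun _ _ => Finset.sum_nonneg fun _ _ => Finset.sum_nonneg fun _ _ => abs_nonneg _)
    (Finset.mem_univ j)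

/-- **(U2)**: the lower triangular part of `exp(x) κ exp(-x)` is small. -/
theorem unif_upper (hB : Bnd) (hρ : RS ρ) (hD : Dg ρ h) (hS : Sr ρ h p q w E)
    (θ : Finset (Fin r)) (C : ℝ) {ε : ℝ} (hε : 0 < ε) : ∃ R : ℝ, ∀ (κ : G) (y : Fin r → ℝ),
      Ort ρ κ → (∀ j ∈ θ, R ≤ y j) →
      (∀ a b, |Real.exp ((∑ j ∈ θ, y j • w j) a - (∑ j ∈ θ, y j • w j) b) *
        mm ρ κ a b| ≤ C) → ∀ j ∈ θ, ∀ a b, w j a < w j b →
      |Real.exp ((∑ j ∈ θ, y j • w j) a - (∑ j ∈ θ, y j • w j) b) * mm ρ κ a b| ≤ ε := by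
  classical
  have h1 : ∀ (j : Fin r) (a b : Fin n), ∃ R : ℝ, ∀ (κ : G) (y : Fin r → ℝ),
      Ort ρ κ → (∀ j ∈ θ, R ≤ y j) →
      (∀ a b, |Real.exp ((∑ j ∈ θ, y j • w j) a - (∑ j ∈ θ, y j • w j) b) *
        mm ρ κ a b| ≤ C) → j ∈ θ → w j a < w j b →
      |Real.exp ((∑ j ∈ θ, y j • w j) a - (∑ j ∈ θ, y j • w j) b) * mm ρ κ a b| ≤ ε := by
    intro j a b
    by_contra hcon
    push Not at hcon
    choose u y hu hR hC hj hab hbig using fun k : ℕ => hcon k
    have hj0 := hj 0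
    have hab0 := hab 0
    have hy0 : ∀ k, ∀ i ∈ θ, 0 ≤ y k i := fun k i hi => (Nat.cast_nonneg k).trans (hR k i hi)
    obtain ⟨x, hx⟩ : ∃ x : ℕ → Fin n → ℝ, ∀ k, x k = ∑ j ∈ θ, y k j • w j :=
      ⟨_, fun k => rfl⟩
    simp only [← hx] at hC hbig
    have hlie : ∀ k, Lie ρ (diagonal (x k)) := fun k => by
      rw [hx]; exact lie_diag_sum θ (y k) hS.wl
    choose e he he' using fun k => exists_exp (hlie k)
    have hN : ∀ k a b, |mm ρ (e k * u k * (e k)⁻¹) a b| ≤ C := fun k a b => by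
      rw [conj_exp (he k) (he' k)]; exact hC k a b
    obtain ⟨κ, φ, hφ, hlim⟩ := exists_subseq hρ u (fun k => ort_entry (hu k))
    obtain ⟨g, ψ, hψ, hlimg⟩ := exists_subseq hρ
      (fun k => e (φ k) * u (φ k) * (e (φ k))⁻¹) (fun k => hN (φ k))
    have hφψ : StrictMono (fun k => φ (ψ k)) := hφ.comp hψ
    have hlim' : Tendsto (fun k => mm ρ (u (φ (ψ k)))) atTop (𝓝 (mm ρ κ)) :=
      hlim.comp hψ.tendsto_atTop
    have hNe : ∀ k, mm ρ (e k * u k * (e k)⁻¹) = diagonal (fun a => Real.exp (x k a)) *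
        mm ρ (u k) * diagonal (fun a => Real.exp (-x k a)) := fun k => by
      rw [mm_mul, mm_mul, he, he']
    simp only [hNe] at hlimg
    have h2 := limit_upper hB hρ hD hS (θ := θ) (u := fun k => u (φ (ψ k)))
      (x := fun k => x (φ (ψ k))) (y := fun k => y (φ (ψ k))) (fun k => hu _) (fun k => hx _)
      (fun k => hy0 _) (fun k => hC _) hlim' hlimg
      (fun i hi => tendsto_subseq_atTop (f := fun k => y k i) (fun k => hR k i hi) hφψ) hj0 hab0
    refine le_of_limit (entry_tendsto hlimg a b) hε (fun k => ?_) h2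
    rw [conj_entry]
    exact hbig _
  choose R hR using h1
  refine ⟨∑ j, ∑ a, ∑ b, |R j a b|, fun κ y hκ hy hC j hj a b hab => ?_⟩
  refine hR j a b κ y hκ (fun i hi => le_trans ?_ (hy i hi)) hC hj hab
  refine (le_abs_self _).trans ?_
  refine (Finset.single_le_sum (f := fun b => |R j a b|) (fun _ _ => abs_nonneg _)
    (Finset.mem_univ b)).trans ?_
  refine (Finset.single_le_sum (f := fun a => ∑ b, |R j a b|)
    (fun _ _ => Finset.sum_nonneg fun _ _ => abs_nonneg _) (Finset.mem_univ a)).trans ?_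
  exact Finset.single_le_sum (f := fun j => ∑ a, ∑ b, |R j a b|)
    (fun _ _ => Finset.sum_nonneg fun _ _ => Finset.sum_nonneg fun _ _ => abs_nonneg _)
    (Finset.mem_univ j)

end Vale.Agent.P092.H270.Re
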