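import Vale.Agent.P092.H270.Re.Key

/-!
P092, project RE (helper270): limits of the matrices `exp(Z) κ exp(-Z)` are upper triangular for
the faces of the Weyl chamber.
-/

set_option linter.all false

open Matrix Filter Topology

namespace Vale.Agent.P092.H270.Re

open Vale.Agent.P092.H793.Re

variable {n : ℕ} {G : Type} [Group G] [TopologicalSpace G] {ρ : G →* SLn n}
  {h : Fin n → ℝ} {r : ℕ} {p q : Fin r → Fin n} {w : Fin r → Fin n → ℝ} {E : Fin r → Mat n}

/-- a linear algebra lemma -/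
lemma upper_of {θ : Finset (Fin r)} {N : Mat n} {ν : Fin r → Mat n}
    (hN : ∀ l ∈ θ, N * diagonal (w l) = (diagonal (w l) + ν l) * N)
    (hν : ∀ l ∈ θ, ∀ a c, ν l a c ≠ 0 → (∀ i ∈ θ, w i c ≤ w i a) ∧ ∃ i ∈ θ, w i c < w i a)
    {j : Fin r} (hj : j ∈ θ) {a0 b : Fin n} (hab : w j a0 < w j b) : N a0 b = 0 := by
  classical
  by_contra hne
  have he : ∀ l ∈ θ, ∀ a, ∑ c, ν l a c * N c b = (w l b - w l a) * N a b := by
    intro l hl a
    have h1 := congrFun (congrFun (hN l hl) a) b
    rw [mul_diagonal, Matrix.add_mul, Matrix.add_apply, diagonal_mul, Matrix.mul_apply] at h1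
    linarith
  obtain ⟨S, hS⟩ : ∃ S : ℝ, S = ∑ l ∈ θ, (w l b - w l a0) := ⟨_, rfl⟩
  have hδ : 0 < w j b - w j a0 := sub_pos.2 hab
  obtain ⟨M, hM⟩ : ∃ M : ℝ, M = (|S| + 1) / (w j b - w j a0) := ⟨_, rfl⟩
  have hM0 : 0 < M := by rw [hM]; positivity
  have hMS : M * (w j b - w j a0) = |S| + 1 := by rw [hM, div_mul_cancel₀ _ hδ.ne']
  obtain ⟨W, hW⟩ : ∃ W : Fin n → ℝ, ∀ a, W a = ∑ l ∈ θ, w l a + M * w j a := ⟨_, fun _ => rfl⟩
  have hWab : W a0 < W b := by
    have h1 : W b - W a0 = S + M * (w j b - w j a0) := by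
      rw [hW, hW, hS, Finset.sum_sub_distrib]; ring
    have h2 := neg_abs_le S
    have : 0 < W b - W a0 := by rw [h1, hMS]; linarith
    linarith
  have hmono : ∀ a c, (∀ i ∈ θ, w i c ≤ w i a) → (∃ i ∈ θ, w i c < w i a) → W c < W a := by
    intro a c h1 h2
    rw [hW, hW]
    have h3 : ∑ l ∈ θ, w l c < ∑ l ∈ θ, w l a := Finset.sum_lt_sum h1 h2
    have h4 : M * w j c ≤ M * w j a := mul_le_mul_of_nonneg_left (h1 j hj) hM0.le
    linarith
  have hsum : ∀ a, ∑ c, ((∑ l ∈ θ, ν l a c) + M * ν j a c) * N c b = (W b - W a) * N a b := by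
    intro a
    have h1 : ∑ c, ((∑ l ∈ θ, ν l a c) + M * ν j a c) * N c b =
        ∑ l ∈ θ, ∑ c, ν l a c * N c b + M * ∑ c, ν j a c * N c b := by
      rw [Finset.sum_comm, Finset.mul_sum, ← Finset.sum_add_distrib]
      refine Finset.sum_congr rfl fun c _ => ?_
      rw [add_mul, Finset.sum_mul]
      ring
    rw [h1, he j hj a, Finset.sum_congr rfl fun l hl => he l hl a, ← Finset.sum_mul, hW, hW,
      Finset.sum_sub_distrib]
    ring
  obtain ⟨a, ha, hmin⟩ := Finset.exists_min_image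
    (Finset.univ.filter fun a => N a b ≠ 0 ∧ W a < W b) W
    ⟨a0, by rw [Finset.mem_filter]; exact ⟨Finset.mem_univ _, hne, hWab⟩⟩
  rw [Finset.mem_filter] at ha
  have h1 : ∑ c, ((∑ l ∈ θ, ν l a c) + M * ν j a c) * N c b ≠ 0 := by
    rw [hsum]
    exact mul_ne_zero (sub_ne_zero.2 ha.2.2.ne') ha.2.1
  obtain ⟨c, _, hc⟩ := Finset.exists_ne_zero_of_sum_ne_zero h1
  have h2 : (∑ l ∈ θ, ν l a c) + M * ν j a c ≠ 0 := left_ne_zero_of_mul hc
  have h3 : N c b ≠ 0 := right_ne_zero_of_mul hc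
  have h4 : ∃ l ∈ θ, ν l a c ≠ 0 := by
    by_contra hcon
    push Not at hcon
    apply h2
    rw [Finset.sum_eq_zero fun l hl => hcon l hl, hcon j hj]
    ring
  obtain ⟨l, hl, hlc⟩ := h4
  obtain ⟨h5, h6⟩ := hν l hl a c hlc
  have h7 := hmono a c h5 h6
  have h8 := hmin c (by rw [Finset.mem_filter]; exact ⟨Finset.mem_univ _, h3, h7.trans ha.2.2⟩)
  exact absurd h7 (not_lt.2 h8)

/-- the gaps of a combination of the dual basis -/
lemma gap_comb (hS : Sr ρ h p q w E) (θ : Finset (Fin r)) (y : Fin r → ℝ) (i : Fin r) :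
    (∑ j ∈ θ, y j • w j) (p i) - (∑ j ∈ θ, y j • w j) (q i) = if i ∈ θ then y i else 0 := by
  classical
  rw [Finset.sum_apply, Finset.sum_apply, ← Finset.sum_sub_distrib]
  have h1 : ∀ j ∈ θ, (y j • w j) (p i) - (y j • w j) (q i) = if i = j then y j else 0 := by
    intro j _
    rw [Pi.smul_apply, Pi.smul_apply, ← smul_sub, hS.dual, smul_eq_mul]
    by_cases hij : i = j
    · rw [if_pos hij, if_pos hij, mul_one]
    · rw [if_neg hij, if_neg hij, mul_zero]
  rw [Finset.sum_congr rfl h1, Finset.sum_ite_eq]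

/-- **Limits are upper triangular.** -/
theorem limit_upper (hB : Bnd) (hρ : RS ρ) (hD : Dg ρ h) (hS : Sr ρ h p q w E) {C : ℝ}
    {θ : Finset (Fin r)} {u : ℕ → G} {x : ℕ → Fin n → ℝ} {y : ℕ → Fin r → ℝ} {κ g : G}
    (hu : ∀ k, Ort ρ (u k)) (hx : ∀ k, x k = ∑ j ∈ θ, y k j • w j)
    (hy0 : ∀ k, ∀ j ∈ θ, 0 ≤ y k j)
    (hC : ∀ k a b, |Real.exp (x k a - x k b) * mm ρ (u k) a b| ≤ C)
    (hlim : Tendsto (fun k => mm ρ (u k)) atTop (𝓝 (mm ρ κ)))
    (hlimN : Tendsto (fun k => diagonal (fun a => Real.exp (x k a)) * mm ρ (u k) *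
      diagonal (fun a => Real.exp (-x k a))) atTop (𝓝 (mm ρ g)))
    (hy : ∀ j ∈ θ, Tendsto (fun k => y k j) atTop atTop)
    {j : Fin r} (hj : j ∈ θ) {a b : Fin n} (hab : w j a < w j b) : mm ρ g a b = 0 := by
  classical
  have hgap : ∀ k i, x k (p i) - x k (q i) = if i ∈ θ then y k i else 0 := fun k i => by
    rw [hx]; exact gap_comb hS θ (y k) i
  have hdom : ∀ k, Dom ρ p q (x k) := fun k => by
    refine ⟨?_, fun i => ?_⟩
    · rw [hx]
      exact lie_diag_sum θ (y k) hS.wl
    · rw [hgap]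
      split_ifs with hi
      · exact hy0 k i hi
      · exact le_rfl
  have hκ : Ort ρ κ := ort_of_tendsto hu hlim
  have hcomm : ∀ i ∈ θ, mm ρ κ * diagonal (w i) = diagonal (w i) * mm ρ κ := fun i hi => by
    refine limit_comm hB hρ hD hS hu hdom hC hlim ?_
    refine (hy i hi).congr fun k => ?_
    rw [hgap, if_pos hi]
  choose e he he' using fun k => exists_exp (hdom k).1
  have hNe : ∀ k, mm ρ (e k * u k * (e k)⁻¹) = diagonal (fun a => Real.exp (x k a)) *
      mm ρ (u k) * diagonal (fun a => Real.exp (-x k a)) := fun k => by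
    rw [mm_mul, mm_mul, he, he']
  have hlimG : Tendsto (fun k => mm ρ (e k * u k * (e k)⁻¹)) atTop (𝓝 (mm ρ g)) := by
    simp only [hNe]; exact hlimN
  have hlimG' := inv_tendsto hlimG
  -- conjugates of `w i`
  have hX : ∀ i, Tendsto (fun k => diagonal (fun a => Real.exp (x k a)) *
      (mm ρ (u k) * diagonal (w i) * (mm ρ (u k))ᵀ) * diagonal (fun a => Real.exp (-x k a)))
      atTop (𝓝 (mm ρ g * diagonal (w i) * mm ρ g⁻¹)) := fun i => by
    have h1 : Tendsto (fun k => mm ρ (e k * u k * (e k)⁻¹) * diagonal (w i) *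
        mm ρ (e k * u k * (e k)⁻¹)⁻¹) atTop (𝓝 (mm ρ g * diagonal (w i) * mm ρ g⁻¹)) :=
      (hlimG.mul tendsto_const_nhds).mul hlimG'
    refine h1.congr fun k => ?_
    have h2 : diagonal (fun a => Real.exp (-x k a)) * diagonal (w i) *
        diagonal (fun a => Real.exp (x k a)) = diagonal (w i) := by
      rw [diagonal_mul_diagonal, diagonal_mul_diagonal]
      congr 1
      funext c
      rw [mul_comm (Real.exp _), mul_assoc, ← Real.exp_add, neg_add_cancel, Real.exp_zero,
        mul_one]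
    have h3 : mm ρ (e k * u k * (e k)⁻¹)⁻¹ = diagonal (fun a => Real.exp (x k a)) *
        (mm ρ (u k))ᵀ * diagonal (fun a => Real.exp (-x k a)) := by
      rw [_root_.mul_inv_rev, _root_.mul_inv_rev, inv_inv, ← mul_assoc, mm_mul, mm_mul, he, he',
        ort_inv (hu k)]
    rw [h3, hNe]
    calc _ = diagonal (fun a => Real.exp (x k a)) * mm ρ (u k) *
          (diagonal (fun a => Real.exp (-x k a)) * diagonal (w i) *
          diagonal (fun a => Real.exp (x k a))) * (mm ρ (u k))ᵀ *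
          diagonal (fun a => Real.exp (-x k a)) := by simp only [Matrix.mul_assoc]
      _ = _ := by rw [h2]; simp only [Matrix.mul_assoc]
  have hY : ∀ i ∈ θ, Tendsto (fun k => mm ρ (u k) * diagonal (w i) * (mm ρ (u k))ᵀ) atTop
      (𝓝 (diagonal (w i))) := fun i hi => by
    have hc : Continuous (fun M : Mat n => M * diagonal (w i) * Mᵀ) := by fun_prop
    have h1 := (hc.tendsto _).comp hlim
    have h2 : mm ρ κ * diagonal (w i) * (mm ρ κ)ᵀ = diagonal (w i) := by
      rw [hcomm i hi, Matrix.mul_assoc, ort_mul_transpose hκ, Matrix.mul_one]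
    rw [h2] at h1
    exact h1
  -- entries
  have hgrow : ∀ m : Fin r → ℕ, ∀ l ∈ θ, m l ≠ 0 →
      Tendsto (fun k => ∑ i, (m i : ℝ) * (x k (p i) - x k (q i))) atTop atTop := by
    intro m l hl hm
    refine tendsto_atTop_mono (fun k => le_root_sum (hdom k) hm) ?_
    refine (hy l hl).congr fun k => ?_
    rw [hgap, if_pos hl]
  have hzero : ∀ m : Fin r → ℕ, (∀ l ∈ θ, m l = 0) → ∀ k,
      ∑ i, (m i : ℝ) * (x k (p i) - x k (q i)) = 0 := by
    intro m hm k
    refine Finset.sum_eq_zero fun i _ => ?_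
    rw [hgap]
    split_ifs with hi
    · rw [hm i hi, Nat.cast_zero, zero_mul]
    · rw [mul_zero]
  refine upper_of (θ := θ) (ν := fun i => mm ρ g * diagonal (w i) * mm ρ g⁻¹ - diagonal (w i))
    (fun l _ => ?_) (fun i hi a c hac => ?_) hj hab
  · rw [add_sub_cancel, Matrix.mul_assoc _ _ (mm ρ g), mm_inv_mul, Matrix.mul_one]
  · -- equal exponents
    have hflat : (∀ k, x k a - x k c = 0) →
        (mm ρ g * diagonal (w i) * mm ρ g⁻¹) a c = (diagonal (w i) : Mat n) a c := by
      intro h0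
      have h1 := entry_tendsto (hX i) a c
      have h2 := entry_tendsto (hY i hi) a c
      refine tendsto_nhds_unique h1 (h2.congr fun k => ?_)
      rw [conj_entry, h0 k, Real.exp_zero, one_mul]
    have hne : a ≠ c := by
      rintro rfl
      apply hac
      rw [Matrix.sub_apply, hflat (fun k => sub_self _), sub_self]
    have hXne : (mm ρ g * diagonal (w i) * mm ρ g⁻¹) a c ≠ 0 := by
      intro h0
      apply hac
      rw [Matrix.sub_apply, h0, diagonal_apply_ne _ hne, sub_zero]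
    obtain ⟨m, hm⟩ := entry_cases hρ hD hS (lie_conj g (hS.wl i)) hXne
    by_cases hall : ∀ l ∈ θ, m l = 0
    · exfalso
      apply hac
      rw [Matrix.sub_apply, hflat, sub_self]
      intro k
      rcases hm with hm | hm
      · rw [hm _ (hdom k).1, hzero m hall k]
      · rw [hm _ (hdom k).1, hzero m hall k, neg_zero]
    · push Not at hall
      obtain ⟨l0, hl0, hml0⟩ := hall
      rcases hm with hm | hm
      · refine ⟨fun l _ => ?_, l0, hl0, ?_⟩
        · have h1 := hm _ (hS.wl l)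
          rw [w_sub hS m l] at h1
          have h2 : (0 : ℝ) ≤ m l := Nat.cast_nonneg _
          linarith
        · have h1 := hm _ (hS.wl l0)
          rw [w_sub hS m l0] at h1
          have h2 : (0 : ℝ) < m l0 := by exact_mod_cast Nat.pos_of_ne_zero hml0
          linarith
      · exfalso
        apply hXne
        obtain ⟨Ch, hCh0, hCh⟩ : ∃ Ch : ℝ, 0 ≤ Ch ∧ ∀ a b, |(diagonal (w i) : Mat n) a b| ≤ Ch := by
          refine ⟨∑ a, |w i a|, Finset.sum_nonneg fun _ _ => abs_nonneg _, fun a b => ?_⟩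
          by_cases hab : a = b
          · subst hab
            rw [diagonal_apply_eq]
            exact Finset.single_le_sum (f := fun a => |w i a|) (fun _ _ => abs_nonneg _)
              (Finset.mem_univ a)
          · rw [diagonal_apply_ne _ hab, abs_zero]
            exact Finset.sum_nonneg fun _ _ => abs_nonneg _
        refine eq_zero_of_decay (entry_tendsto (hX i) a c) (hgrow m l0 hl0 hml0)
          (C := n * (n * (1 * Ch) * 1)) fun k => ?_
        rw [conj_entry, abs_mul, abs_of_pos (Real.exp_pos _), ← hm _ (hdom k).1, mul_comm]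
        refine mul_le_mul_of_nonneg_right ?_ (Real.exp_pos _).le
        refine mul3_bound zero_le_one hCh0 (fun a b => ort_entry (hu k) a b) hCh (fun a b => ?_) a c
        rw [transpose_apply]
        exact ort_entry (hu k) b a

end Vale.Agent.P092.H270.Re
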